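import Vale.Agent.P262.Full.Final

/-!
The Euclidean Steinitz constant is `O(√d)`, uniformly in the number of vectors.
-/

open Finset

namespace Vale.Agent.Results.P262.SteinitzSqrt

/-- Every zero-sum family in the Euclidean unit ball of `ℝ^d`, of any length, can be ordered so
that all partial sums have norm at most `C √d`. -/
theorem result : ∃ C : ℝ, 0 < C ∧ ∀ (d N : ℕ) (v : Fin N → EuclideanSpace ℝ (Fin d)),
    (∀ i, ‖v i‖ ≤ 1) → ∑ i, v i = 0 →
      ∃ π : Equiv.Perm (Fin N), ∀ k : ℕ,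
        ‖∑ i ∈ univ.filter (fun i : Fin N => (i : ℕ) < k), v (π i)‖ ≤
          C * Real.sqrt (d : ℝ) :=
  ⟨2 ^ 165, by positivity, fun _ _ v hv hz => Vale.Agent.P262.Full.exists_perm v hv hz⟩

end Vale.Agent.Results.P262.SteinitzSqrt
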